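import Vale.Agent.P235.K5.Cap

/-!
P235, K5, line EX, row E6 (helper371): at most two roots.
-/

set_option autoImplicit false

namespace Vale.Agent.P235.K5.EX.H371

open SimpleGraph Vale.Agent.P235 Vale.Agent.P235.H134 Vale.Agent.P235.H56 Vale.Agent.P235.K5

/-- some Gromov product of `F` is at most four times the slack -/
def SLx {V : Type} (d F : V → V → ℝ) (x y z : V) : Prop :=
  (F x y + F x z - F y z) / 2 ≤ 4 * ((d x y - F x y) + (d y z - F y z) + (d x z - F x z)) ∨
  (F x y + F y z - F x z) / 2 ≤ 4 * ((d x y - F x y) + (d y z - F y z) + (d x z - F x z)) ∨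
  (F x z + F y z - F x y) / 2 ≤ 4 * ((d x y - F x y) + (d y z - F y z) + (d x z - F x z))

variable {V : Type}

theorem slx_line {d F F1 : V → V → ℝ} {ψ : V → ℝ} (h1 : ∀ x y, F1 x y ≤ d x y)
    (h2 : ∀ x y, |ψ x - ψ y| ≤ d x y)
    (hF : ∀ x y, F x y = (1 / 8) * F1 x y + (7 / 8) * |ψ x - ψ y|) (x y z : V) :
    SLx d F x y z := by
  unfold SLx
  rw [hF, hF, hF]
  have a1 := h1 x y
  have a2 := h1 x z
  have a3 := h1 y z
  have b1 := h2 x y
  have b2 := h2 x z
  have b3 := h2 y z
  rcases abs_cases (ψ x - ψ y) with ⟨e1, k1⟩ | ⟨e1, k1⟩ <;>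
    rcases abs_cases (ψ x - ψ z) with ⟨e2, k2⟩ | ⟨e2, k2⟩ <;>
    rcases abs_cases (ψ y - ψ z) with ⟨e3, k3⟩ | ⟨e3, k3⟩ <;>
    rw [e1] at b1 ⊢ <;> rw [e2] at b2 ⊢ <;> rw [e3] at b3 ⊢ <;>
    first
    | (left; linarith)
    | (right; left; linarith)
    | (right; right; linarith)

theorem slx_half {d F F1 : V → V → ℝ} (h0 : IsL1 F1) (h1 : ∀ x y, F1 x y ≤ d x y)
    (hF : ∀ x y, F x y = (1 / 2) * F1 x y) (x y z : V) : SLx d F x y z := by
  unfold SLx
  rw [hF, hF, hF]
  left
  have a1 := h1 x y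
  have a2 := h1 x z
  have a3 := h1 y z
  have b1 := h0.nonneg x y
  have b2 := h0.nonneg x z
  have b3 := h0.nonneg y z
  linarith

/-- two roots -/
theorem two [Finite V] {G : SimpleGraph V} {c c' : ℝ} (hc : 0 < c) (hc1 : c ≤ 1)
    (hc' : 0 < c') (hcc : c' ≤ c / 80) (hE : EdgeExact G c) {d : V → V → ℝ} (hd : IsMet d)
    (hG : Gen G d) {s t : V} (hst : G.Adj s t) {D : ℝ} (hD1 : c' * d s t ≤ D)
    (hD2 : D ≤ d s t) :
    ∃ F : V → V → ℝ, IsL1 F ∧ F s t = D ∧ (∀ x y, c' * d x y ≤ F x y) ∧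
      (∀ x y, F x y ≤ d x y) ∧ ∀ x y z, SLx d F x y z := by
  have hΔ : 0 < d s t := hd.pos s t hst.ne
  have hD : 0 < D := (mul_pos hc' hΔ).trans_le hD1
  obtain ⟨ρ, hρ⟩ : ∃ ρ, ρ = short d s t D := ⟨_, rfl⟩
  have hρM : IsMet ρ := by rw [hρ]; exact short_isMet hd hD
  have hρG : Gen G ρ := by rw [hρ]; exact short_gen hd hG hst
  have hρst : ρ s t = D := by rw [hρ]; exact short_st hd hD hD2
  have hρle : ∀ x y, ρ x y ≤ d x y := by
    intro x y
    rw [hρ]
    exact short_le _ _ _ _ _ _
  obtain ⟨F1, LF, RF, lowF, upF⟩ := hE ρ hρM hρG s t hst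
  obtain ⟨ψ, hψ⟩ : ∃ ψ, ψ = psi d s t D := ⟨_, rfl⟩
  have U3 : ∀ x y, |ψ x - ψ y| ≤ ρ x y := by
    rw [hρ, hψ]
    exact psi_lip hd hD hD2
  have L3 : IsL1 fun x y => |ψ x - ψ y| := isL1_line ψ
  have R3 : |ψ s - ψ t| = D := by
    rw [hψ, psi_s hd hD hD2, psi_t hd hD hD2, zero_sub, abs_neg, abs_of_pos hD]
  have key : ∀ x y, d x s + D + d t y < d x y / 10 →
      c' * d x y ≤ (1 / 8) * F1 x y + (7 / 8) * |ψ x - ψ y| := by
    intro x y hxy
    have t1 := hd.tri x s y
    have t2 := hd.tri s t y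
    have t3 : d s t ≤ d x s + d x t := by
      have := hd.tri s x t
      rw [hd.symm s x] at this; exact this
    have t4 : d s t ≤ d y s + d t y := by
      have := hd.tri s y t
      rw [hd.symm s y, hd.symm y t] at this; exact this
    have n1 := hd.nonneg x s
    have n2 := hd.nonneg t y
    have e4 := (upF s x).trans (hρle s x)
    rw [hd.symm s x] at e4
    have e5 := (upF y t).trans (hρle y t)
    rw [hd.symm y t] at e5
    have a2 : D - d x s - d t y ≤ F1 x y := by
      have e1 := LF.tri s x t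
      have e2 := LF.tri x y t
      rw [RF, hρst] at e1
      linarith only [e1, e2, e4, e5]
    have p1 : ψ x = -(d x s) := by
      rw [hψ]
      unfold psi
      rw [if_pos (by linarith only [hD, hxy, t1, t2, n1, n2]),
        min_eq_left (by linarith only [hD, hxy, t1, t2, n1, n2] : d x s ≤ d s t / 8), max_eq_left]
      refine (min_le_right _ _).trans ?_
      linarith only [hD, hxy, t1, t2, t3, n1, n2]
    have p2 : ψ y = D + d t y := by
      rw [hψ]
      unfold psi
      rw [if_pos (by linarith only [hD, hxy, t1, t2, n1, n2]), hd.symm y t,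
        min_eq_left (by linarith only [hD, hxy, t1, t2, n1, n2] :
          D + d t y ≤ D + 2 * (d s t / 8) - d t y), max_eq_right]
      have : 0 ≤ min (d y s) (d s t / 8) :=
        le_min (hd.nonneg y s) (by linarith only [hD, hxy, t1, t2, n1, n2])
      linarith only [hD, n2, this]
    have a3 : d x s + D + d t y ≤ |ψ x - ψ y| := by
      rw [p1, p2]
      have := neg_abs_le (-(d x s) - (D + d t y))
      linarith only [this]
    have h1 : d x y ≤ d s t + (d x s + d t y) := by linarith only [t1, t2]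
    have hab : 0 ≤ d x s + d t y := by linarith only [n1, n2]
    have h2 : c' * d x y ≤ D + (1 / 80) * (d x s + d t y) := by
      calc c' * d x y ≤ c' * (d s t + (d x s + d t y)) := mul_le_mul_of_nonneg_left h1 hc'.le
        _ = c' * d s t + c' * (d x s + d t y) := by ring
        _ ≤ D + (1 / 80) * (d x s + d t y) := by
            have := mul_le_mul_of_nonneg_right (hcc.trans (by linarith) : c' ≤ 1 / 80) hab
            linarith only [this, hD1]
    linarith only [h2, a2, a3, hab]
  have hFd : ∀ x y, (1 / 8) * F1 x y + (7 / 8) * |ψ x - ψ y| ≤ d x y := by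
    intro x y
    linarith only [upF x y, U3 x y, hρle x y]
  refine ⟨fun x y => (1 / 8) * F1 x y + (7 / 8) * |ψ x - ψ y|,
    (LF.smul (by norm_num)).add (L3.smul (by norm_num)), ?_, fun x y => ?_, hFd,
    slx_line (F1 := F1) (ψ := ψ) (fun x y => (upF x y).trans (hρle x y))
      (fun x y => (U3 x y).trans (hρle x y)) fun _ _ => rfl⟩
  · show (1 / 8) * F1 s t + (7 / 8) * |ψ s - ψ t| = D
    rw [R3, RF, hρst]; ring
  · show c' * d x y ≤ (1 / 8) * F1 x y + (7 / 8) * |ψ x - ψ y|
    by_cases h : d x y / 10 ≤ ρ x y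
    · have e1 := lowF x y
      have e3 := L3.nonneg x y
      have e4 : c * (d x y / 10) ≤ c * ρ x y := mul_le_mul_of_nonneg_left h hc.le
      have e5 : c' * d x y ≤ c / 80 * d x y := mul_le_mul_of_nonneg_right hcc (hd.nonneg x y)
      linarith only [e1, e3, e4, e5]
    · push Not at h
      have hdn := hd.nonneg x y
      rw [hρ] at h
      unfold short at h
      rcases min_lt_iff.mp h with h | h
      · linarith only [hdn, h]
      · rcases min_lt_iff.mp h with h | h
        · exact key x y h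
        · have := key y x (by rw [hd.symm y s, hd.symm t x, hd.symm y x]; linarith only [h])
          rw [LF.symm x y, abs_sub_comm (ψ x), hd.symm x y]
          exact this

/-- at most one root -/
theorem one [Finite V] {G : SimpleGraph V} {c c' : ℝ} (hcc : c' ≤ c / 2) (hE : EdgeExact G c)
    (hconn : G.Connected) {d : V → V → ℝ} (hd : IsMet d) (hG : Gen G d) :
    ∃ F : V → V → ℝ, IsL1 F ∧ (∀ x y, c' * d x y ≤ F x y) ∧
      (∀ x y, F x y ≤ d x y) ∧ ∀ x y z, SLx d F x y z := by
  by_cases hex : ∃ s t, G.Adj s t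
  · obtain ⟨s, t, hst⟩ := hex
    obtain ⟨F1, LF, -, lowF, upF⟩ := hE d hd hG s t hst
    refine ⟨fun x y => (1 / 2) * F1 x y, LF.smul (by norm_num), fun x y => ?_, fun x y => ?_,
      slx_half LF upF fun _ _ => rfl⟩
    · have e5 : c' * d x y ≤ c / 2 * d x y := mul_le_mul_of_nonneg_right hcc (hd.nonneg x y)
      show c' * d x y ≤ (1 / 2) * F1 x y
      linarith [lowF x y]
    · show (1 / 2) * F1 x y ≤ d x y
      linarith [upF x y, LF.nonneg x y]
  · push Not at hex
    have hsub : ∀ x y : V, x = y := by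
      intro x y
      by_contra hxy
      obtain ⟨w⟩ := hconn.preconnected x y
      cases w with
      | nil => exact hxy rfl
      | cons h _ => exact hex _ _ h
    have h0 : ∀ x y, d x y = 0 := fun x y => by rw [hsub x y, hd.self]
    refine ⟨fun x y => 0 * |d x x - d y y|, (isL1_line fun x => d x x).smul le_rfl, ?_, ?_, ?_⟩
    · intro x y
      simp [h0]
    · intro x y
      simp [h0]
    · intro x y z
      left
      simp [h0]

end Vale.Agent.P235.K5.EX.H371
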