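import Vale.Agent.P235.K5.EX.Defs
import Vale.Agent.P235.K5.EX.H371.Two

/-!
P235, K5, line EX, row E6 (helper371): at most two roots, the literal.
-/

set_option autoImplicit false

namespace Vale.Agent.P235.K5.EX.H371

open SimpleGraph Vale.Agent.P235 Vale.Agent.P235.H134 Vale.Agent.P235.H56 Vale.Agent.P235.K5

/-- [E6] at most two roots -/
theorem px2 : PX2Stmt := by
  intro V _ G c hc hc1 hE hconn d hd hG S hS hcl ρ hρ hlow hup
  have hfin : S.Finite := Set.toFinite S
  have h6 : (0 : ℝ) < 10 ^ 6 := by norm_num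
  have hc' : 0 < c / 10 ^ 6 := div_pos hc h6
  have hcases : S.ncard ≤ 1 ∨ S.ncard = 2 := by omega
  rcases hcases with h | h
  · have hsub : S.Subsingleton := by
      rcases Set.ncard_le_one hfin |>.1 h with h'
      exact fun a ha b hb => h' a ha b hb
    obtain ⟨F, h1, h2, h3, h4⟩ := one (c := c) (c' := c / 10 ^ 6)
      (div_le_div_of_nonneg_left hc.le (by norm_num) (by norm_num)) hE hconn hd hG
    refine ⟨F, h1, ?_, h2, h3, fun x y z _ _ _ => h4 x y z⟩
    intro u hu v hv
    rw [hsub hu hv, h1.self, hρ.self]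
  · obtain ⟨s, t, hne, rfl⟩ := Set.ncard_eq_two.1 h
    have hs : s ∈ ({s, t} : Set V) := Or.inl rfl
    have ht : t ∈ ({s, t} : Set V) := Or.inr rfl
    have hst : G.Adj s t := hcl s hs t ht hne
    obtain ⟨F, h1, h2, h3, h4, h5⟩ := two hc hc1 hc'
      (div_le_div_of_nonneg_left hc.le (by norm_num) (by norm_num)) hE hd hG hst
      (hlow s hs t ht) (hup s hs t ht)
    refine ⟨F, h1, ?_, h3, h4, fun x y z _ _ _ => h5 x y z⟩
    intro u hu v hv
    rcases hu with rfl | rfl <;> rcases hv with rfl | rfl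
    · rw [h1.self, hρ.self]
    · exact h2
    · rw [h1.symm, hρ.symm]; exact h2
    · rw [h1.self, hρ.self]

end Vale.Agent.P235.K5.EX.H371
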